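import Vale.Agent.P283.H646.Points

/-!
# Bounded klt complements for quotients of `x₀ x₁ ⋯ x_q = g(z₁, …, z_k)` with a boundary with
arbitrary components
-/

namespace Vale.Agent.Results.P283.DegenerateBoundaries

open MvPolynomial Vale.Agent.P283.Q Vale.Agent.P283.Q.H646

/-- Bounded klt complements for the quotients `X = Y / G` of `Y = {x₀ x₁ ⋯ x_q = g(z₁, …, z_k)}`,
`q + k = d`, and the effective `ε`-lc pairs `(X, B)` with `π^* (K_X + B) = K_Y + B_Y`,
`B_Y = ∑ b_j div(z_j) + (1 / Q₀) div(f)`, where `f` is any function on `Y` which is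
semi-invariant (`IsPairF`). For all multiples `n` of `c Q₀` with `n ≥ c Q₀ (1 + 1 / ε)`, on an open
neighbourhood of the given points one rational function gives a klt `n`-complement of `(X, B)`
and of all its crepant models `X' → X`, and `c` only depends on `d` and `J`.
(1) `G` has a subgroup `G₀` of index at most `J`, acting diagonally on the `x_i` and `z_j`, such
that `f / z^μ` is invariant under `G₀`; `E` is a function on `Y` such that
`μ_j ≤ (Q₀ - 1) (1 - b_j)` or `z_j` divides `E`, for all `j`, and on `{E ≠ 0}` the pair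
`(Y, ∑ (1 - μ_j / κ) div(z_j) + (1 / κ) div(f))` is log canonical, `κ < Q₀`; the points are the
images of the points of `Y` whose `G`-orbit lies in `{E ≠ 0}`.
(2) `f = F(z)` for a polynomial `F` such that the partial derivative `∂^α F` does not vanish at the
point `a`, where `|α| < Q₀` and `α_j ≤ (Q₀ - 1) (1 - b_j)` for all `j` with `a_j = 0`, and `a = 0`
or `G` is diagonal; the points are the images of the points of `Y` with `z = a`. Here `c` only
depends on `d` (put `J = 0`). -/
theorem result : ∀ d J : ℕ, 0 < d → ∃ c : ℕ, 0 < c ∧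
    ∀ ε : ℝ, 0 < ε → ∀ Q₀ n : ℕ, 0 < Q₀ → c * Q₀ ∣ n → (c : ℝ) * Q₀ * (1 + 1 / ε) ≤ n →
    ∀ q k : ℕ, q + k = d → ∀ (K L : Type) [Field K] [Field L] [Algebra ℂ K] [Algebra ℂ L]
      [Algebra K L] [IsScalarTower ℂ K L] (x : Fin (q + 1) → L) (z : Fin k → L)
      (g : MvPolynomial (Fin k) ℂ) (b : Fin k → ℚ) (f : L) (G : Subgroup (L ≃ₐ[ℂ] L))
      (A : Subalgebra ℂ K) (D : Fin (q + k) → Derivation ℂ K K) (B : QDivisor A),
      IsPairF x z g b f Q₀ G A D B ε →
    (∀ (G₀ : Subgroup (L ≃ₐ[ℂ] L)) (κ : ℕ) (μ : Fin k → ℕ) (E : L),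
      IsLcData x z b f J Q₀ G G₀ κ μ E → HasKltComplementOver D B n (orbitPoints x z G A E)) ∧
    (∀ (F : MvPolynomial (Fin k) ℂ) (a : Fin k → ℂ) (α : Fin k →₀ ℕ), f = aeval z F →
      a = 0 ∨ IsDiagonal x z G → α.degree < Q₀ → eval a (pderivs α F) ≠ 0 →
      (∀ j, a j = 0 → (α j : ℚ) ≤ (Q₀ - 1) * (1 - b j)) →
        HasKltComplementOver D B n (pointsOver x z A a)) :=
  Vale.Agent.P283.H646.main_all

end Vale.Agent.Results.P283.DegenerateBoundaries
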