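import Vale.Agent.P283.H108.FibLink
import Vale.Agent.P283.H108.LocCrit

/-!
# Bounded klt complements for pairs which are log Calabi-Yau over a hypersurface in a toric variety,
with fibres of any dimension; and the case of a finite cover of the hypersurface
-/

namespace Vale.Agent.Results.P283.LcCorrespondences

open MvPolynomial Vale.Agent.P283.Q Vale.Agent.P283.H207 Vale.Agent.P283.Z647
  Vale.Agent.P283.H108

/-- (1) Bounded klt complements: for all `p ≥ 1`, `J`, `q ≥ 1` and `ε > 0` there is `c₀ ≥ 1`, which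
does not depend on `dim X'`, such that the following holds for all multiples `n ≥ 1` of `c₀`. Let
`Y → X'` be a finite cover of degree at most `J` of a variety of any dimension `d ≥ 1`, and let
`y_0, …, y_p` be any nonzero rational functions on `Y` with a relation `f(y_0, …, y_p) = 0`. They
define a rational map from `Y` to the hypersurface `{f = 0}` in the torus, which does not have to be
dominant, and whose fibres may have any dimension. Let `X' → Z = Spec A` be a proper morphism such
that the monomials `y^u` with `u ∈ τ^∨` are regular on the normalization of `Z` in `L = ℂ(Y)`. Let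
`(X', B')` be an effective pair such that the pull-back of `K_{X'} + B'` is
`(1 / q) div(G) + (1 / r) F`, where `𝒪(-F)` is generated by monomials `y^{E i}` over `Z`. Let
`λ(a) = ∑ a_k - minWt f a - ∑ c_i minWt (g_i) a`, where `c_i ≥ 0`, `q c_i ∈ ℤ`, and let the pair
`(Y, Δ)` with `q (K_Y + Δ) = div(G) + q λ(y)` be sub-log canonical over `{b ≠ 0} ⊆ Z`
(`IsLcModelOn`). Let the toric log discrepancies `λ(v j) - ord_{v j}(F) / r` along the rays of a
subdivision of `τ` be in `[0, 1] ∩ (1/q) ℤ`. And let `(X', B')` be klt with all toric log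
discrepancies at least `ε` (`IsToricallyEpsLC`); or let `(X', B')` be `ε`-lc, and let all weights in
`τ` of the tropical hypersurface of `f` be realized, up to multiples by at most `J`, by log
canonical places of `(Y, Δ)` (`HasLcPlaces`). Then `(X', B')` has a klt `n`-complement over all
closed points `z` of `Z` with `b(z) ≠ 0`.

(2) Let `{f = 0}` be any `d`-dimensional irreducible hypersurface in a torus with the coordinates
`y_k`, let `L` be a finite extension of its function field `ℂ(y)`, of any degree, and a finite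
extension of `K` of degree at most `J`. Over `{b ≠ 0} ⊆ Z` let the hypersurface, which may be
degenerate, be log canonical together with the toric boundary and `∑ c_i div(g_i)`
(`IsToricallyLCOn`, `IsLcCorrOn`), and let the pull-back of `-(K_{X'} + B')` be generated by
monomials over `Z`, up to `∑ c_i div(g_i)` (`IsGeneratedM`). Then the hypotheses `IsLcModelOn` and
`IsGeneratedG` of (1) hold for some `G`. And if moreover `(X', B')` is `ε`-lc, `A` has the same
integral closure in `L` as the ring of the affine toric variety of `τ`, and the degree of `L` over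
`ℂ(y)` is at most `J` (`IsFiniteOverToric`), then the toric log discrepancies are at least
`min(ε / J, 1 / 2)`, as in (1).

(3) The hypersurface is log canonical together with the toric boundary and `∑ c_i div(g_i)` where
the Laurent polynomial `P · y^u` in the ring of the affine toric variety of `τ` is invertible, if
there the initial forms of `f` are smooth and the multiplicities of the initial forms of the `g_i`
along their zeros are small (`SmallMultOn`). -/
theorem result :
    (∀ p : ℕ, 0 < p → ∀ J q : ℕ, 0 < q → ∀ ε : ℝ, 0 < ε →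
    ∃ c₀ : ℕ, 0 < c₀ ∧ ∀ n : ℕ, 0 < n → c₀ ∣ n →
    ∀ (K L : Type) [Field K] [Field L] [Algebra ℂ K] [Algebra ℂ L] [Algebra K L]
      [IsScalarTower ℂ K L] (d s M N : ℕ)
      -- the functions on `Y`, their relation, and the piecewise linear function `λ`
      (y : Fin (p + 1) → L) (f : MvPolynomial (Fin (p + 1)) ℂ)
      (g : Fin s → MvPolynomial (Fin (p + 1)) ℂ) (c : Fin s → ℚ) (v : Fin N → Fin (p + 1) → ℤ)
      -- the base `Z = Spec A` and its open subset `{b ≠ 0}`
      (A : Subalgebra ℂ K) (b : K)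
      -- a rational `d`-form `ω ≠ 0` on `X'`
      (D : Fin d → Derivation ℂ K K) (G : L), 0 < d → (∃ z, jac D z ≠ 0) →
      IsLcModelOn J q y f g c v A b D G →
      (∀ i, 0 ≤ c i ∧ ∃ z : ℤ, (q : ℚ) * c i = z) →
    -- the effective pair `(X', B')` and the proper morphism `X' → Z`
    ∀ (𝒞 : Set (Subalgebra ℂ K)) (B : ∀ C : Subalgebra ℂ K, QDivisor C) (r : ℕ)
      (ψ : Subalgebra ℂ K → K), IsPair D A 𝒞 B r ψ →
    -- `-(K_{X'} + B')` is generated over `Z` by monomials, up to `(1/q) div(G)`
    ∀ (E : Fin (M + 1) → Fin (p + 1) → ℤ), IsGeneratedG d q y G E 𝒞 r ψ →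
      IsSubdivision v E →
      (∀ j, 0 ≤ toricDisc f g c r E (v j) ∧ toricDisc f g c r E (v j) ≤ 1 ∧
        ∃ z : ℤ, (q : ℚ) * toricDisc f g c r E (v j) = z) →
      -- `(X', B')` is klt and its toric log discrepancies are at least `ε`
      ((∃ δ : ℝ, 0 < δ ∧ ∀ C ∈ 𝒞, IsEpsLC D (B C) δ) ∧ IsToricallyEpsLC v f g c r E ε ∨
        -- or it is `ε`-lc and the weights are realized by log canonical places
        (∀ C ∈ 𝒞, IsEpsLC D (B C) ε) ∧ HasLcPlaces J q y f g c v A D G) →
      HasKltComplementOn D 𝒞 B n b) ∧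
    -- the case of a hypersurface and its finite covers
    (∀ d : ℕ, 0 < d → ∀ J q : ℕ, 0 < q →
    ∀ (K L : Type) [Field K] [Field L] [Algebra ℂ K] [Algebra ℂ L] [Algebra K L]
      [IsScalarTower ℂ K L] (s M N : ℕ) (y : Fin (d + 1) → L) (f : MvPolynomial (Fin (d + 1)) ℂ)
      (g : Fin s → MvPolynomial (Fin (d + 1)) ℂ) (c : Fin s → ℚ) (v : Fin N → Fin (d + 1) → ℤ)
      (A : Subalgebra ℂ K) (b : K) (D : Fin d → Derivation ℂ K K),
      (∃ z, jac D z ≠ 0) → A.FG → IsLcCorrOn J y f g c v A b →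
      (∀ i, 0 ≤ c i ∧ ∃ z : ℤ, (q : ℚ) * c i = z) →
    ∀ (𝒞 : Set (Subalgebra ℂ K)) (B : ∀ C : Subalgebra ℂ K, QDivisor C) (r : ℕ)
      (ψ : Subalgebra ℂ K → K), IsPair D A 𝒞 B r ψ →
    ∀ (E : Fin (M + 1) → Fin (d + 1) → ℤ), IsGeneratedM y f g c E D 𝒞 r ψ →
      (∃ G : L, IsLcModelOn J q y f g c v A b D G ∧ IsGeneratedG d q y G E 𝒞 r ψ) ∧
      ∀ ε : ℝ, 0 < ε → (∀ C ∈ 𝒞, IsEpsLC D (B C) ε) → IsFiniteOverToric J y v A →
        IsToricallyEpsLC v f g c r E (min (ε / J) (1 / 2))) ∧
    -- a criterion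
    ∀ d : ℕ, 0 < d → ∀ (L : Type) [Field L] [Algebra ℂ L] (s N : ℕ) (y : Fin (d + 1) → L)
      (f : MvPolynomial (Fin (d + 1)) ℂ) (g : Fin s → MvPolynomial (Fin (d + 1)) ℂ)
      (c : Fin s → ℚ) (v : Fin N → Fin (d + 1) → ℤ) (P : MvPolynomial (Fin (d + 1)) ℂ)
      (u : Fin (d + 1) → ℤ),
      FiniteDimensional (IntermediateField.adjoin ℂ (Set.range y)) L →
      (∀ P : MvPolynomial (Fin (d + 1)) ℂ, aeval y P = 0 ↔ f ∣ P) → f ≠ 0 →
      (∀ k, y k ≠ 0) → (∀ i, aeval y (g i) ≠ 0) → (∀ i, 0 ≤ c i) → aeval y P ≠ 0 →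
      (∀ γ ∈ P.support, ∀ j, 0 ≤ ∑ k, v j k * (γ k + u k)) →
      SmallMultOn v f g c P u →
      IsToricallyLCOn y f g c v ![aeval y P * ∏ k, y k ^ u k, (aeval y P * ∏ k, y k ^ u k)⁻¹] :=
  ⟨fun p hp J q hq ε hε => coreFib' p hp J q hq ε hε,
    fun _ hd _ _ hq _ _ _ _ _ _ _ _ _ _ _ _ _ _ _ _ _ _ _ hD hA H hc _ _ _ _ hP _ hgen =>
      ⟨link hd hq hD hA H hc hgen, fun _ hε hlc hfin =>
        toric_of_finite hd hD H (fun i => (hc i).1) hP hgen hε hlc hfin⟩,
    fun _ hd _ _ _ _ _ _ _ _ _ _ _ _ h1 h2 h3 h4 h5 h6 h7 h8 h9 =>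
      smallMultAt_lcFin hd h1 h2 h3 h4 h5 h6 h7 h8 h9⟩

end Vale.Agent.Results.P283.LcCorrespondences
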