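import Vale.Agent.P283.H646L.MainL

/-!
# From log canonical complements to bounded klt complements on quotient singularities
-/

namespace Vale.Agent.Results.P283.LcToKlt

open MvPolynomial Vale.Agent.P283.Q Vale.Agent.P283.Q.H646 Vale.Agent.P283.Q.H646L

/-- Let `X = Y / G` be a quotient of the affine space `Y = {x₀ = g(z₁, …, z_d)}` by a finite group,
acting linearly on the span of the `z_j`, and let `(X, B)` be an effective `ε`-lc pair with
`π^* (K_X + B) = K_Y + B_Y`, `B_Y = ∑ b_j div(z_j) + (1 / Q₀) div(f)`, where `f` is any function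
on `Y` which is semi-invariant (`IsPairF`). Let `G₀` be a subgroup of `G` of index at most `J` which
acts diagonally, and `η > 0`. If over the open subset `{E ≠ 0}` of `Y` the pair
`(Y / G₀, B + η Δ)`, where `Δ` is the image of `∑ (1 - b_j) div(z_j)`, has a log canonical
`Q₀`-complement (`IsLcComplement`), then `(X, B)` has a klt `n`-complement over the points of `X`
over which `E ≠ 0`, for all multiples `n` of `c Q₀` with `n ≥ c (Q₀ + 1 / (η ε))`, and one rational
function gives klt `n`-complements of all the crepant models `X' → X` too. Here `c` only depends on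
`d` and `J`. -/
theorem result : ∀ d J : ℕ, 0 < d → ∃ c : ℕ, 0 < c ∧
    ∀ ε : ℝ, 0 < ε → ∀ η : ℝ, 0 < η → ∀ Q₀ n : ℕ, 0 < Q₀ → c * Q₀ ∣ n →
      (c : ℝ) * (Q₀ + 1 / (η * ε)) ≤ n →
    ∀ (K L : Type) [Field K] [Field L] [Algebra ℂ K] [Algebra ℂ L]
      [Algebra K L] [IsScalarTower ℂ K L] (x : Fin (0 + 1) → L) (z : Fin d → L)
      (g : MvPolynomial (Fin d) ℂ) (b : Fin d → ℚ) (f : L) (G : Subgroup (L ≃ₐ[ℂ] L))
      (A : Subalgebra ℂ K) (D : Fin (0 + d) → Derivation ℂ K K) (B : QDivisor A),
      IsPairF x z g b f Q₀ G A D B ε →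
    ∀ (G₀ : Subgroup (L ≃ₐ[ℂ] L)) (s : MvPolynomial (Fin d) ℂ) (N : Fin d → ℕ) (E : L),
      IsLcComplement x z b f J Q₀ η G G₀ s N E →
      HasKltComplementOver D B n (orbitPoints x z G A E) :=
  fun d J hd => Vale.Agent.P283.H646L.main_L d J hd

end Vale.Agent.Results.P283.LcToKlt
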