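import Vale.Agent.P283.H646L.LinkF

/-!
# From log canonical complements to bounded klt complements for contractions
-/

namespace Vale.Agent.Results.P283.LcToKltCorrespondences

open MvPolynomial Vale.Agent.P283.Q Vale.Agent.P283.H207 Vale.Agent.P283.Z647
  Vale.Agent.P283.H108 Vale.Agent.P283.H646L

/-- (1) For all `p ≥ 1`, `J`, `q ≥ 1` and `ε > 0` there is `c₀ ≥ 1` such that the following holds for
all `η > 0` and all multiples `n ≥ c₀ (1 + 1 / η)` of `c₀`. Let `X' → Z = Spec A` be a proper
morphism, where `X'` has any dimension `d ≥ 1` and the function field `K`, let the field `L` be an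
extension of `K` of degree at most `J`, the function field of a finite cover `Y'` of `X'`, and let
`y_0, …, y_p` be nonzero functions on `Y'` with `f(y) = 0` for a polynomial `f ≠ 0`, such that the
monomials `y^u` with `u ∈ τ^∨` are regular on the normalization of `Z` in `L`, where `τ` is a cone,
which may contain lines (`IsMonomialModel`). So `Z` has any dimension. Let `(X', B')` be an effective
pair such that `q (K_{X'} + B')` pulls back to `div(G) + (q / r) F` on `Y'`, where `G ∈ L` and
`𝒪(-F)` is generated by monomials over `Z` (`IsGeneratedG`), and let the numbers `c_i ≥ 0`,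
`q c_i ∈ ℤ`, and the polynomials `g_i ≠ 0` be such that the toric log discrepancies are at most `1`
along the rays `v j` (`toricDisc`). Let `(X', B')` be klt with all toric log discrepancies at least
`ε` (`IsToricallyEpsLC`); or let `(X', B')` be `ε`-lc and let `y` and `G` have enough log canonical
places (`HasLcPlaces`).

If, over the open subset `{b ≠ 0}` of `Z`, the pull-back `(Y', B_{Y'})` of `(X', B')` has a log
canonical `q`-complement `Λ ≥ B_{Y'}`, given by `G` and a Laurent polynomial in the `y_k`, with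
`Λ ≥ B_{Y'} + η` along the toric divisors with positive toric log discrepancies
(`IsLcComplementG`), then `(X', B')` has a klt `n`-complement over all closed points `z` of `Z` with
`b(z) ≠ 0`.

(2) Let `V = {f = 0}` be an irreducible hypersurface of dimension `d = dim X'` in a torus, let `L`
be a finite extension of its function field `ℂ(y)`, of any degree (`IsCommonCover`), and let `A` be
of finite type. Let `K_{X'} + B'` pull back to `div(h) + ∑ c_i div(g_i) + F / r`, where `h` is the
quotient of `ω` by the residue form of `V` (`IsGeneratedM`). Then the hypotheses of (1) on `X'`,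
`y`, `f`, `A` and `g` hold, and there is a function `G` with `q (K_{X'} + B')` pulling back to
`div(G) + (q / r) F`. If `(X', B')` is `ε`-lc, `A` has the same integral closure in `L` as the ring
of the affine toric variety of `τ`, and the degree of `L` over `ℂ(y)` is at most `J`
(`IsFiniteOverToric`), then all toric log discrepancies are at least `min(ε / J, 1 / 2)`. If the
functions `σ i ∈ ℂ(y)` are regular over `{b ≠ 0}` (`IsRegularOver`), then every `q`-complement given
by a Laurent polynomial which is log canonical where the `σ i` are regular (`IsLcComplementOn`) is a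
`q`-complement as in (1). -/
theorem result : (∀ p : ℕ, 0 < p → ∀ J q : ℕ, 0 < q → ∀ ε : ℝ, 0 < ε →
    ∃ c₀ : ℕ, 0 < c₀ ∧ ∀ (η : ℝ) (n : ℕ), 0 < η → c₀ ∣ n → (c₀ : ℝ) * (1 + 1 / η) ≤ n →
    ∀ (K L : Type) [Field K] [Field L] [Algebra ℂ K] [Algebra ℂ L] [Algebra K L]
      [IsScalarTower ℂ K L] (d s M N : ℕ) (y : Fin (p + 1) → L)
      (f : MvPolynomial (Fin (p + 1)) ℂ)
      (g : Fin s → MvPolynomial (Fin (p + 1)) ℂ) (c : Fin s → ℚ) (v : Fin N → Fin (p + 1) → ℤ)
      -- the base `Z = Spec A`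
      (A : Subalgebra ℂ K), 0 < d → IsMonomialModel d J y f v A →
      (∀ i, g i ≠ 0 ∧ 0 ≤ c i ∧ ∃ z : ℤ, (q : ℚ) * c i = z) →
    -- a rational `d`-form `ω ≠ 0` on `X'`
    ∀ D : Fin d → Derivation ℂ K K, (∃ z, jac D z ≠ 0) →
    -- the effective pair `(X', B')` and the proper morphism `X' → Z`
    ∀ (𝒞 : Set (Subalgebra ℂ K)) (B : ∀ C : Subalgebra ℂ K, QDivisor C) (r : ℕ)
      (ψ : Subalgebra ℂ K → K), IsPair D A 𝒞 B r ψ →
    -- `-q (K_{X'} + B')` is generated over `Z` by monomials, up to `div(G)`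
    ∀ (G : L) (E : Fin (M + 1) → Fin (p + 1) → ℤ), G ≠ 0 → IsGeneratedG d q y G E 𝒞 r ψ →
      IsSubdivision v E → (∀ j, toricDisc f g c r E (v j) ≤ 1) →
      -- `(X', B')` is klt and its toric log discrepancies are at least `ε`
      ((∃ δ : ℝ, 0 < δ ∧ ∀ C ∈ 𝒞, IsEpsLC D (B C) δ) ∧ IsToricallyEpsLC v f g c r E ε ∨
        -- or it is `ε`-lc and there are enough log canonical places
        (∀ C ∈ 𝒞, IsEpsLC D (B C) ε) ∧ HasLcPlaces J q y f g c v A D G) →
    -- the open subset `{b ≠ 0}` of `Z` and the log canonical `q`-complement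
    ∀ (b : K) (S : MvPolynomial (Fin (p + 1)) ℂ) (N₀ : Fin (p + 1) → ℤ),
      IsLcComplementG y f g c v A b D G r E q η S N₀ → HasKltComplementOn D 𝒞 B n b) ∧
    -- (2)
    (∀ d : ℕ, 0 < d → ∀ J q : ℕ, 0 < q →
    ∀ (K L : Type) [Field K] [Field L] [Algebra ℂ K] [Algebra ℂ L] [Algebra K L]
      [IsScalarTower ℂ K L] (s M N : ℕ) (y : Fin (d + 1) → L) (f : MvPolynomial (Fin (d + 1)) ℂ)
      (g : Fin s → MvPolynomial (Fin (d + 1)) ℂ) (c : Fin s → ℚ) (v : Fin N → Fin (d + 1) → ℤ)
      (A : Subalgebra ℂ K), A.FG → IsCommonCover J y f g v A →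
      (∀ i, 0 ≤ c i ∧ ∃ z : ℤ, (q : ℚ) * c i = z) →
    ∀ D : Fin d → Derivation ℂ K K, (∃ z, jac D z ≠ 0) →
    ∀ (𝒞 : Set (Subalgebra ℂ K)) (B : ∀ C : Subalgebra ℂ K, QDivisor C) (r : ℕ)
      (ψ : Subalgebra ℂ K → K), IsPair D A 𝒞 B r ψ →
    ∀ (E : Fin (M + 1) → Fin (d + 1) → ℤ), IsGeneratedM y f g c E D 𝒞 r ψ →
      IsMonomialModel d J y f v A ∧ (∀ i, g i ≠ 0) ∧
      (∀ ε : ℝ, 0 < ε → (∀ C ∈ 𝒞, IsEpsLC D (B C) ε) → IsFiniteOverToric J y v A →
        IsToricallyEpsLC v f g c r E (min (ε / J) (1 / 2))) ∧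
      ∃ G : L, G ≠ 0 ∧ IsGeneratedG d q y G E 𝒞 r ψ ∧
        ∀ (b : K) (t : ℕ) (σ : Fin t → L), IsRegularOver d y A b σ →
        ∀ (η : ℝ) (S : MvPolynomial (Fin (d + 1)) ℂ) (N₀ : Fin (d + 1) → ℤ),
          IsLcComplementOn y f g c v r E q η σ S N₀ →
            IsLcComplementG y f g c v A b D G r E q η S N₀) :=
  ⟨coreFinalF, linkF⟩

end Vale.Agent.Results.P283.LcToKltCorrespondences
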